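import Vale.Agent.P235.Bdl.B1

set_option autoImplicit false

/-!
# P235, line EX, row [E3]: the centre lemma without a `K_{3,3}` condition

`d' = Short3(d, ρ)`, `e i x` the depth in the leg `i`, `sh` the shrinking of the edges between two
legs, `D` the metric of the lengths `d - sh`, `d2 = Short3(D, ρ)`.
-/

namespace Vale.Agent.P235.K5.EX.H315

open Vale.Agent.P235

variable {V : Type}

/-- the depth in the leg `i` -/
noncomputable def dep (d' : V → V → ℝ) (R : Fin 3 → V) (A : Fin 3 → ℝ) (i : Fin 3) (x : V) : ℝ :=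
  A i - min (d' x (R i)) (A i)

section

variable {d' : V → V → ℝ} {R : Fin 3 → V} {A : Fin 3 → ℝ}

lemma dep_nonneg (i : Fin 3) (x : V) : 0 ≤ dep d' R A i x := by
  unfold dep
  linarith [min_le_right (d' x (R i)) (A i)]

lemma dep_pos {i : Fin 3} {x : V} (h : 0 < dep d' R A i x) :
    d' x (R i) < A i ∧ dep d' R A i x = A i - d' x (R i) := by
  unfold dep at h ⊢
  rcases min_cases (d' x (R i)) (A i) with ⟨h1, h2⟩ | ⟨h1, h2⟩
  · rw [h1] at h ⊢
    exact ⟨by linarith, rfl⟩
  · rw [h1] at h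
    linarith

/-- the other roots are far -/
lemma far (hm : IsMet d') (hR : ∀ i j, i ≠ j → A i + A j ≤ d' (R i) (R j)) {i j : Fin 3}
    (hij : i ≠ j) {y : V} (h : 0 < dep d' R A j y) : A i + dep d' R A j y ≤ d' y (R i) := by
  obtain ⟨-, h1⟩ := dep_pos h
  have h2 := hm.tri (R i) y (R j)
  have h3 := hm.symm (R i) y
  have h4 := hR i j hij
  linarith

lemma dep_add (hm : IsMet d') (hR : ∀ i j, i ≠ j → A i + A j ≤ d' (R i) (R j)) {i j : Fin 3}
    (hij : i ≠ j) {x y : V} (h : 0 < dep d' R A i x) (h' : 0 < dep d' R A j y) :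
    dep d' R A i x + dep d' R A j y ≤ d' x y := by
  obtain ⟨-, h1⟩ := dep_pos h
  obtain ⟨-, h1'⟩ := dep_pos h'
  have h2 := hm.tri (R i) x (R j)
  have h3 := hm.tri x y (R j)
  have h4 := hm.symm (R i) x
  have h5 := hR i j hij
  linarith

/-- no root shortcut inside a leg -/
lemma short {d : V → V → ℝ} {ρ : Fin 3 → Fin 3 → ℝ} (hd : IsMet d) (hρ : IsMet ρ)
    (hA : ∀ i j, i ≠ j → A i + A j = ρ i j) (hA0 : ∀ i, 0 ≤ A i)
    (hρd : ∀ i j, ρ i j ≤ d (R i) (R j)) (hle : ∀ x y, d' x y ≤ d x y)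
    (hc : ∀ x y, d' x y = d x y ∨ ∃ i j, d' x y = d x (R i) + ρ i j + d (R j) y)
    {i : Fin 3} {x : V} (h : 0 < dep d' R A i x) : d x (R i) = d' x (R i) := by
  obtain ⟨h1, -⟩ := dep_pos h
  rcases hc x (R i) with h2 | ⟨j, k, h2⟩
  · exact h2.symm
  · have h3 := hρd k i
    have h4 := hρ.tri j k i
    by_cases hji : j = i
    · subst hji
      have h5 := hρ.self j
      have h6 := hle x (R j)
      linarith
    · exfalso
      have h5 := hA j i hji
      have h6 := hA0 j
      have h7 := hd.nonneg x (R j)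
      linarith

end

/-- the test function -/
noncomputable def tf (d : V → V → ℝ) (r : V) (a : ℝ) (z : V) : ℝ :=
  min (d z r) (a / 4 + 3 / 4 * d z r)

lemma tf_lo {d : V → V → ℝ} {r : V} {a : ℝ} {z : V} (h : d z r ≤ a) : tf d r a z = d z r := by
  unfold tf
  exact min_eq_left (by linarith)

lemma tf_hi {d : V → V → ℝ} {r : V} {a : ℝ} {z : V} (h : a ≤ d z r) :
    tf d r a z = a / 4 + 3 / 4 * d z r := by
  unfold tf
  exact min_eq_right (by linarith)

lemma tf_lip {d : V → V → ℝ} (hd : IsMet d) (r : V) (a : ℝ) (u v : V) :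
    |tf d r a u - tf d r a v| ≤ d u v := by
  have h1 := hd.tri u v r
  have h2 := hd.tri v u r
  have h3 := hd.symm v u
  have h4 := hd.nonneg u v
  unfold tf
  rw [abs_le]
  rcases min_cases (d u r) (a / 4 + 3 / 4 * d u r) with ⟨e1, e2⟩ | ⟨e1, e2⟩ <;>
    rcases min_cases (d v r) (a / 4 + 3 / 4 * d v r) with ⟨e3, e4⟩ | ⟨e3, e4⟩ <;>
    rw [e1, e3] <;> constructor <;> linarith

/-- one edge -/
lemma edge {d d' : V → V → ℝ} {ρ : Fin 3 → Fin 3 → ℝ} {R : Fin 3 → V} {A : Fin 3 → ℝ}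
    (hd : IsMet d) (hρ : IsMet ρ) (hA : ∀ i j, i ≠ j → A i + A j = ρ i j) (hA0 : ∀ i, 0 ≤ A i)
    (hρd : ∀ i j, ρ i j ≤ d (R i) (R j)) (hm : IsMet d')
    (hR : ∀ i j, d' (R i) (R j) = ρ i j) (hle : ∀ x y, d' x y ≤ d x y)
    (hc : ∀ x y, d' x y = d x y ∨ ∃ i j, d' x y = d x (R i) + ρ i j + d (R j) y)
    {a b : Fin 3} (hab : a ≠ b) {u v : V} {s : ℝ} (ha : 0 < dep d' R A a u)
    (hb : 0 < dep d' R A b v) (hs : 4 * s ≤ dep d' R A a u) (hs' : 4 * s ≤ dep d' R A b v)
    (i : Fin 3) : |tf d (R i) (A i) u - tf d (R i) (A i) v| ≤ d u v - s := by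
  have hR' : ∀ i j, i ≠ j → A i + A j ≤ d' (R i) (R j) := fun i j hij => by
    rw [hR, hA i j hij]
  have hsum := (dep_add hm hR' hab ha hb).trans (hle u v)
  have t1 := hd.tri u v (R i)
  have t2 := hd.tri v u (R i)
  have t3 := hd.symm v u
  have e0 := hd.nonneg u v
  by_cases hia : i = a
  · subst hia
    obtain ⟨h1, h2⟩ := dep_pos ha
    have h3 := short hd hρ hA hA0 hρd hle hc ha
    have h4 := (far hm hR' hab hb).trans (hle v (R i))
    rw [tf_lo (by linarith), tf_hi (by linarith), abs_le]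
    constructor <;> linarith
  · by_cases hib : i = b
    · subst hib
      obtain ⟨h1, h2⟩ := dep_pos hb
      have h3 := short hd hρ hA hA0 hρd hle hc hb
      have h4 := (far hm hR' (Ne.symm hab) ha).trans (hle u (R i))
      rw [tf_hi (a := A i) (z := u) (by linarith), tf_lo (by linarith), abs_le]
      constructor <;> linarith
    · have h3 := (far hm hR' hia ha).trans (hle u (R i))
      have h4 := (far hm hR' hib hb).trans (hle v (R i))
      rw [tf_hi (a := A i) (z := u) (by linarith), tf_hi (by linarith), abs_le]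
      constructor <;> linarith

/-- **[E3]** the centre: `D` dominates every function which is Lipschitz for the lengths `d - sh`
on the edges. -/
theorem centre {G : SimpleGraph V} {d d' D d2 : V → V → ℝ} {ρ : Fin 3 → Fin 3 → ℝ}
    {R : Fin 3 → V} {A : Fin 3 → ℝ} {sh : V → V → ℝ}
    (hd : IsMet d) (hρ : IsMet ρ) (hA : ∀ i j, i ≠ j → A i + A j = ρ i j) (hA0 : ∀ i, 0 ≤ A i)
    (hρd : ∀ i j, ρ i j ≤ d (R i) (R j))
    (hm : IsMet d') (hR : ∀ i j, d' (R i) (R j) = ρ i j) (hle : ∀ x y, d' x y ≤ d x y)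
    (hc : ∀ x y, d' x y = d x y ∨ ∃ i j, d' x y = d x (R i) + ρ i j + d (R j) y)
    (hsh : ∀ u v, G.Adj u v → sh u v ≤ 0 ∨ ∃ a b, a ≠ b ∧ 0 < dep d' R A a u ∧
      0 < dep d' R A b v ∧ 4 * sh u v ≤ dep d' R A a u ∧ 4 * sh u v ≤ dep d' R A b v)
    (hDn : ∀ x y, 0 ≤ D x y) (hρD : ∀ i j, ρ i j ≤ D (R i) (R j))
    (hD : ∀ f : V → ℝ, (∀ u v, G.Adj u v → |f u - f v| ≤ d u v - sh u v) →
      ∀ x y, |f x - f y| ≤ D x y)
    (h2 : IsMet d2) (hR2 : ∀ i j, d2 (R i) (R j) = ρ i j)
    (hc2 : ∀ x y, d2 x y = D x y ∨ ∃ i j, d2 x y = D x (R i) + ρ i j + D (R j) y)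
    (hSL : ∃ q, A q ≤ 4 * ((d (R 0) (R 1) - ρ 0 1) + (d (R 1) (R 2) - ρ 1 2) +
      (d (R 0) (R 2) - ρ 0 2)))
    {t : ℝ} {x y : V} (hx : ∀ i, d2 x (R i) ≤ A i + t) (hy : ∀ i, d2 y (R i) ≤ A i + t) :
    d2 x y ≤ 66 * t := by
  have ht : 0 ≤ t := by
    have h1 := h2.tri (R 0) x (R 1)
    have h3 := h2.symm (R 0) x
    have h4 := hA 0 1 (by decide)
    rw [hR2] at h1
    linarith [hx 0, hx 1]
  have hq : ∀ q, d2 x y ≤ 2 * (A q + t) := by
    intro q
    have h1 := h2.tri x (R q) y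
    have h3 := h2.symm (R q) y
    linarith [hx q, hy q]
  by_cases hsmall : ∃ j, A j ≤ t
  · obtain ⟨j, hj⟩ := hsmall
    linarith [hq j]
  · push Not at hsmall
    have hDx : ∀ i, D x (R i) ≤ A i + t := by
      intro i
      rcases hc2 x (R i) with h3 | ⟨j, k, h3⟩
      · rw [← h3]
        exact hx i
      · have h4 := hρD k i
        have h5 := hρ.tri j k i
        have h6 := hx i
        by_cases hji : j = i
        · subst hji
          have h7 := hρ.self j
          linarith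
        · exfalso
          have h7 := hA j i hji
          have h8 := hDn x (R j)
          have h9 := hsmall j
          linarith
    have hdx : ∀ i, d x (R i) ≤ A i + 4 / 3 * t := by
      intro i
      have h3 := hD (tf d (R i) (A i)) (by
        intro u v huv
        rcases hsh u v huv with h4 | ⟨a, b, hab, ha, hb, h4, h5⟩
        · exact (tf_lip hd _ _ u v).trans (by linarith)
        · exact edge hd hρ hA hA0 hρd hm hR hle hc hab ha hb h4 h5 i) x (R i)
      have h4 : tf d (R i) (A i) (R i) = 0 := by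
        rw [tf_lo (by rw [hd.self]; exact hA0 i), hd.self]
      rw [h4, sub_zero] at h3
      have h5 := (le_abs_self _).trans h3
      rcases le_total (d x (R i)) (A i) with h6 | h6
      · linarith
      · rw [tf_hi h6] at h5
        linarith [hDx i]
    obtain ⟨q, hq2⟩ := hSL
    have hs : ∀ i j, i ≠ j → d (R i) (R j) - ρ i j ≤ 8 / 3 * t := by
      intro i j hij
      have h3 := hd.tri (R i) x (R j)
      have h4 := hd.symm (R i) x
      linarith [hdx i, hdx j, hA i j hij]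
    have h01 := hs 0 1 (by decide)
    have h12 := hs 1 2 (by decide)
    have h02 := hs 0 2 (by decide)
    linarith [hq q]

end Vale.Agent.P235.K5.EX.H315
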