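import Vale.Agent.P235.K5.EX.Defs
import Vale.Agent.P235.K5.EX.H360.Shrink
import Vale.Agent.P235.K5.EX.H315.E3

set_option autoImplicit false

/-!
# P235, line EX, rows [E3] (the literal) and [E2] (the literal, from the letters of helper360)
-/

namespace Vale.Agent.P235.K5.EX.H315

open SimpleGraph Vale.Agent.P235 Vale.Agent.P235.K5

variable {V : Type}

lemma ga_add {ρ : Fin 3 → Fin 3 → ℝ} (hρ : IsMet ρ) {i j : Fin 3} (hij : i ≠ j) :
    ga ρ i + ga ρ j = ρ i j := by
  have s01 := hρ.symm 0 1
  have s02 := hρ.symm 0 2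
  have s12 := hρ.symm 1 2
  have g0 : ga ρ 0 = (ρ 0 1 + ρ 0 2 - ρ 1 2) / 2 := rfl
  have g1 : ga ρ 1 = (ρ 1 2 + ρ 1 0 - ρ 2 0) / 2 := rfl
  have g2 : ga ρ 2 = (ρ 2 0 + ρ 2 1 - ρ 0 1) / 2 := rfl
  fin_cases i <;> fin_cases j
  · exact absurd rfl hij
  · show ga ρ 0 + ga ρ 1 = ρ 0 1
    linarith
  · show ga ρ 0 + ga ρ 2 = ρ 0 2
    linarith
  · show ga ρ 1 + ga ρ 0 = ρ 1 0
    linarith
  · exact absurd rfl hij
  · show ga ρ 1 + ga ρ 2 = ρ 1 2
    linarith
  · show ga ρ 2 + ga ρ 0 = ρ 2 0
    linarith
  · show ga ρ 2 + ga ρ 1 = ρ 2 1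
    linarith
  · exact absurd rfl hij

lemma ga_nonneg {ρ : Fin 3 → Fin 3 → ℝ} (hρ : IsMet ρ) (i : Fin 3) : 0 ≤ ga ρ i := by
  have h := hρ.tri (i + 1) i (i + 2)
  have h1 := hρ.symm (i + 1) i
  unfold ga
  linarith

/-- **[E3]** -/
theorem centreS : CentreStmt := by
  intro V G d hd R ρ hρ hρd hSL e sh D hS d2 h2 hR2 _ hc2 x y t hx hy
  have hgp : ∀ i, gp d2 R i = ga ρ i := by
    intro i
    unfold gp ga
    rw [hR2, hR2, hR2]
  simp only [hgp] at hx hy
  have ht : 0 ≤ t := by
    have h1 := h2.tri (R 0) x (R 1)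
    have h3 := h2.symm (R 0) x
    have h4 := ga_add hρ (i := 0) (j := 1) (by decide)
    rw [hR2] at h1
    linarith [hx 0, hx 1]
  have hq : ∀ q, d2 x y ≤ 2 * (ga ρ q + t) := by
    intro q
    have h1 := h2.tri x (R q) y
    have h3 := h2.symm (R q) y
    linarith [hx q, hy q]
  have hρD : ∀ i j, ρ i j ≤ D (R i) (R j) := by
    intro i j
    by_cases hij : i = j
    · rw [hij, hρ.self]
      exact hS.met.nonneg _ _
    · refine le_trans ?_ (hS.tt_D (R i) (R j))
      have n := ga_nonneg hρ
      have key : ∀ k, |e k (R i) - e k (R j)| = (if k = i then ga ρ i else 0) +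
          (if k = j then ga ρ j else 0) := by
        intro k
        by_cases h1 : k = i
        · rw [if_pos h1, if_neg (fun h => hij (h1.symm.trans h)), h1, hS.root,
            hS.root' j i (Ne.symm hij), sub_zero, add_zero, abs_of_nonneg (n i)]
        · rw [if_neg h1, hS.root' i k (Ne.symm h1)]
          by_cases h2 : k = j
          · rw [if_pos h2, h2, hS.root, zero_sub, abs_neg, zero_add, abs_of_nonneg (n j)]
          · rw [if_neg h2, hS.root' j k (Ne.symm h2), sub_zero, abs_zero, add_zero]
      have hsum : TT e (R i) (R j) = ∑ k, |e k (R i) - e k (R j)| := by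
        rw [Fin.sum_univ_three]
        rfl
      rw [hsum, Finset.sum_congr rfl fun k _ => key k, Finset.sum_add_distrib,
        Finset.sum_ite_eq' Finset.univ i, Finset.sum_ite_eq' Finset.univ j,
        if_pos (Finset.mem_univ _), if_pos (Finset.mem_univ _), ga_add hρ hij]
  by_cases hsmall : ∃ j, ga ρ j ≤ t
  · obtain ⟨j, hj⟩ := hsmall
    linarith [hq j]
  · push Not at hsmall
    have hDx : ∀ i, D x (R i) ≤ ga ρ i + t := by
      intro i
      rcases hc2 x (R i) with h3 | ⟨j, k, h3⟩
      · rw [← h3]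
        exact hx i
      · have h4 := hρD k i
        have h5 := hρ.tri j k i
        have h6 := hx i
        by_cases hji : j = i
        · subst hji
          have h7 := hρ.self j
          linarith
        · exfalso
          have h7 := ga_add hρ hji
          have h8 := hS.met.nonneg x (R j)
          have h9 := hsmall j
          linarith
    have hdx : ∀ i, d x (R i) ≤ ga ρ i + 4 / 3 * t := fun i => hS.unshrink i x t ht (hDx i)
    obtain ⟨q, hq2⟩ := hSL
    have hs : ∀ i j, i ≠ j → d (R i) (R j) - ρ i j ≤ 8 / 3 * t := by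
      intro i j hij
      have h3 := hd.tri (R i) x (R j)
      have h4 := hd.symm (R i) x
      linarith [hdx i, hdx j, ga_add hρ hij]
    have h01 := hs 0 1 (by decide)
    have h12 := hs 1 2 (by decide)
    have h02 := hs 0 2 (by decide)
    unfold sr at hq2
    linarith [hq q]

open H360 in
/-- one edge of the unshrink, letters of helper360 -/
lemma edge360 {d : V → V → ℝ} {R : Fin 3 → V} {A : Fin 3 → ℝ} (hd : IsMet d) (h : Leg d R A)
    (i : Fin 3) (u v : V) : |tf d (R i) (A i) u - tf d (R i) (A i) v| ≤ H360.ll d R A u v := by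
  have t1 := hd.tri u v (R i)
  have t2 := hd.tri v u (R i)
  have t3 := hd.symm v u
  have e0 := hd.nonneg u v
  unfold H360.ll
  rcases H360.cases hd h u v with ⟨_, h1, _⟩ | ⟨a, b, hab, ha, hb, -, h1, h2⟩
  · rw [h1, sub_zero]
    exact tf_lip hd _ _ u v
  · have h3 := min_le_right (d (R a) (R b) - (A a + A b)) (min (ee d R A a u) (ee d R A b v) / 4)
    have h4 := min_le_left (ee d R A a u) (ee d R A b v)
    have h5 := min_le_right (ee d R A a u) (ee d R A b v)
    have h6 := h.le a b hab
    have far : ∀ {p q : Fin 3} {z : V}, p ≠ q → 0 < ee d R A q z →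
        A p + ee d R A q z ≤ d z (R p) := by
      intro p q z hpq hz
      have g1 := (ee_pos hz).1
      have g2 := h.le p q hpq
      have g3 := hd.tri (R p) z (R q)
      have g4 := hd.symm (R p) z
      linarith
    by_cases hia : i = a
    · subst hia
      obtain ⟨g1, g2⟩ := ee_pos ha
      have g4 := far hab hb
      rw [tf_lo (by linarith), tf_hi (by linarith), abs_le]
      constructor <;> linarith
    · by_cases hib : i = b
      · subst hib
        obtain ⟨g1, g2⟩ := ee_pos hb
        have g4 := far (Ne.symm hab) ha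
        rw [tf_hi (a := A i) (z := u) (by linarith), tf_lo (by linarith), abs_le]
        constructor <;> linarith
      · have g3 := far hia ha
        have g4 := far hib hb
        rw [tf_hi (a := A i) (z := u) (by linarith), tf_hi (by linarith), abs_le]
        constructor <;> linarith

open H360 in
/-- **[E2]** -/
theorem shrS : ShrStmt := by
  intro V _ G d hd hG R _ ρ hρ hρd
  have h : Leg d R (ga ρ) := ⟨ga_nonneg hρ, fun i j hij => by
    rw [ga_add hρ hij]
    exact hρd i j⟩
  have hTT : ∀ x y, EX.TT (ee d R (ga ρ)) x y = H360.TT d R (ga ρ) x y := by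
    intro x y
    unfold H360.TT
    rw [Fin.sum_univ_three]
    rfl
  refine ⟨ee d R (ga ρ), shr d R (ga ρ), DD G d R (ga ρ), ?_⟩
  constructor
  · exact ee_nonneg
  · intro i x
    unfold ee
    exact max_le (by linarith [hd.nonneg x (R i)]) (h.nn i)
  · intro i j x hij
    rcases (ee_nonneg (d := d) (R := R) (A := ga ρ) i x).eq_or_lt with h1 | h1
    · exact Or.inl h1.symm
    · exact Or.inr (ee_one hd h hij h1)
  · exact ee_root hd h
  · intro i j hij
    exact ee_other hd h (Ne.symm hij)
  · exact shr_nonneg h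
  · intro i j x y hij
    have h1 : trm d R (ga ρ) i j x y ≤ shr d R (ga ρ) x y := by
      unfold shr
      refine le_trans ?_ (Finset.single_le_sum
        (f := fun i => ∑ j, trm d R (ga ρ) i j x y)
        (fun i _ => Finset.sum_nonneg fun j _ => trm_nonneg h i j x y) (Finset.mem_univ i))
      exact Finset.single_le_sum (f := fun j => trm d R (ga ρ) i j x y)
        (fun j _ => trm_nonneg h i j x y) (Finset.mem_univ j)
    refine le_trans (le_of_eq ?_) h1
    unfold trm
    rw [if_neg hij, ga_add hρ hij]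
    congr 1
    ring
  · intro x y
    linarith [shr_le hd h x y, hd.nonneg x y]
  · intro x y
    rw [hTT]
    exact TT_le hd h x y
  · exact DD_isMet hd hG h
  · exact DD_gen hd hG h
  · exact DD_le_d hd hG h
  · intro x y hxy
    exact DD_le_ll hd h hxy
  · intro x y
    rw [hTT]
    exact TT_le_DD hd hG h x y
  · intro x y
    linarith [le_DD (G := G) hd hG h x y, hd.nonneg x y]
  · intro i x t ht hx
    have h3 := DD_lip (G := G) hG h (f := tf d (R i) (ga ρ i)) (fun u v _ => edge360 hd h i u v)
      x (R i)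
    have h4 : tf d (R i) (ga ρ i) (R i) = 0 := by
      rw [tf_lo (by rw [hd.self]; exact h.nn i), hd.self]
    rw [h4, sub_zero] at h3
    have h5 := (le_abs_self _).trans h3
    rcases le_total (d x (R i)) (ga ρ i) with h6 | h6
    · linarith
    · rw [tf_hi h6] at h5
      linarith

end Vale.Agent.P235.K5.EX.H315
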