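import Vale.Agent.P235.K5.EX.Defs

set_option autoImplicit false

/-!
# P235, line EX, row [E5]: the slack condition is preserved
-/

namespace Vale.Agent.P235.K5.EX.H315

open SimpleGraph Vale.Agent.P235 Vale.Agent.P235.K5

variable {V : Type}

lemma tt_sum (e : Fin 3 → V → ℝ) (x y : V) : TT e x y = ∑ m, |e m x - e m y| := by
  rw [Fin.sum_univ_three]
  rfl

lemma tt_same {e : Fin 3 → V → ℝ} {i : Fin 3} {x y : V} (hx : ∀ m, m ≠ i → e m x = 0)
    (hy : ∀ m, m ≠ i → e m y = 0) : TT e x y = |e i x - e i y| := by
  rw [tt_sum]
  refine Finset.sum_eq_single_of_mem i (Finset.mem_univ i) fun m _ hm => ?_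
  rw [hx m hm, hy m hm, sub_zero, abs_zero]

lemma tt_diff {e : Fin 3 → V → ℝ} (h0 : ∀ i x, 0 ≤ e i x) {i j : Fin 3} (hij : i ≠ j) {x y : V}
    (hx : ∀ m, m ≠ i → e m x = 0) (hy : ∀ m, m ≠ j → e m y = 0) :
    TT e x y = e i x + e j y := by
  have key : ∀ k, |e k x - e k y| = (if k = i then e i x else 0) + (if k = j then e j y else 0) := by
    intro k
    by_cases h1 : k = i
    · rw [if_pos h1, if_neg (fun h => hij (h1.symm.trans h)), h1, hy i hij, sub_zero, add_zero,
        abs_of_nonneg (h0 i x)]
    · rw [if_neg h1, hx k h1]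
      by_cases h2 : k = j
      · rw [if_pos h2, h2, zero_sub, abs_neg, zero_add, abs_of_nonneg (h0 j y)]
      · rw [if_neg h2, hy k h2, sub_zero, abs_zero, add_zero]
  rw [tt_sum, Finset.sum_congr rfl fun k _ => key k, Finset.sum_add_distrib,
    Finset.sum_ite_eq' Finset.univ i, Finset.sum_ite_eq' Finset.univ j,
    if_pos (Finset.mem_univ _), if_pos (Finset.mem_univ _)]

/-- the pure inequality: some Gromov product of `T` vanishes -/
lemma sl_of {a b c A B C la lb lc Ta Tb Tc sa sb sc : ℝ} {S : ℝ}
    (ha : A ≤ 1 / 8 * Ta + 7 / 8 * la) (hb : B ≤ 1 / 8 * Tb + 7 / 8 * lb)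
    (hc : C ≤ 1 / 8 * Tc + 7 / 8 * lc) (ta : Ta ≤ la) (tb : Tb ≤ lb) (tc : Tc ≤ lc)
    (ea : la = a - sa) (eb : lb = b - sb) (ec : lc = c - sc) 
    (hS : (Ta + Tc - Tb) / 2 ≤ 4 * (sa + sb + sc)) (hSe : S = (a - A) + (b - B) + (c - C)) :
    (A + C - B) / 2 ≤ 4 * S := by
  linarith

/-- three nonnegative numbers -/
lemma three_min {s t u m : ℝ} (hs : 0 ≤ s) (ht : 0 ≤ t) (hu : 0 ≤ u) (hm : 0 ≤ m)
    (h : m ≤ s + t + u) : m ≤ min s m + min t m + min u m := by
  rcases min_cases s m with ⟨e1, h1⟩ | ⟨e1, h1⟩ <;> rcases min_cases t m with ⟨e2, h2⟩ | ⟨e2, h2⟩ <;>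
    rcases min_cases u m with ⟨e3, h3⟩ | ⟨e3, h3⟩ <;> rw [e1, e2, e3] <;> linarith

/-- **[E5]** -/
theorem slS : SLStmt := by
  intro V G d hd R ρ hρ hρd hSL e sh D hS F hF hFe x y z hxy hyz hxz
  obtain ⟨q, hq⟩ := hSL
  have h0 := hS.e_nonneg
  have leg1 : ∀ x, ∃ i, ∀ m, m ≠ i → e m x = 0 := by
    intro x
    by_cases h : ∃ i, e i x ≠ 0
    · obtain ⟨i, hi⟩ := h
      exact ⟨i, fun m hm => (hS.one i m x (Ne.symm hm)).resolve_left hi⟩
    · push Not at h
      exact ⟨0, fun m _ => h m⟩
  obtain ⟨i, hi⟩ := leg1 x
  obtain ⟨j, hj⟩ := leg1 y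
  obtain ⟨k, hk⟩ := leg1 z
  have ha := hFe x y hxy
  have hb := hFe y z hyz
  have hc := hFe x z hxz
  have ta := hS.tt_le x y
  have tb := hS.tt_le y z
  have tc := hS.tt_le x z
  have na := hS.sh_nonneg x y
  have nb := hS.sh_nonneg y z
  have nc := hS.sh_nonneg x z
  -- the three conclusions from a bound for the Gromov product of `T`
  have c1 : (TT e x y + TT e x z - TT e y z) / 2 ≤ 4 * (sh x y + sh y z + sh x z) →
      SL d F x y z := by
    intro h
    left
    unfold slk
    linarith
  have c2 : (TT e x y + TT e y z - TT e x z) / 2 ≤ 4 * (sh x y + sh y z + sh x z) →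
      SL d F x y z := by
    intro h
    right; left
    unfold slk
    linarith
  have c3 : (TT e x z + TT e y z - TT e x y) / 2 ≤ 4 * (sh x y + sh y z + sh x z) →
      SL d F x y z := by
    intro h
    right; right
    unfold slk
    linarith
  have hn : 0 ≤ 4 * (sh x y + sh y z + sh x z) := by linarith
  by_cases hij : i = j
  · subst hij
    by_cases hik : i = k
    · subst hik
      -- a line
      rw [tt_same hi hj, tt_same hj hk, tt_same hi hk] at c1 c2 c3
      have key : ∀ p q r : ℝ, (|p - q| + |p - r| - |q - r|) / 2 ≤ 0 ∨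
          (|p - q| + |q - r| - |p - r|) / 2 ≤ 0 ∨ (|p - r| + |q - r| - |p - q|) / 2 ≤ 0 := by
        intro p q r
        rcases le_total p q with h1 | h1 <;> rcases le_total q r with h2 | h2 <;>
          rcases le_total p r with h3 | h3
        · right; left
          rw [abs_of_nonpos (by linarith), abs_of_nonpos (by linarith), abs_of_nonpos (by linarith)]
          linarith
        · right; left
          rw [abs_of_nonpos (by linarith), abs_of_nonpos (by linarith), abs_of_nonneg (by linarith)]
          linarith
        · right; right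
          rw [abs_of_nonpos (by linarith), abs_of_nonneg (by linarith), abs_of_nonpos (by linarith)]
          linarith
        · left
          rw [abs_of_nonpos (by linarith), abs_of_nonneg (by linarith), abs_of_nonneg (by linarith)]
          linarith
        · left
          rw [abs_of_nonneg (by linarith), abs_of_nonpos (by linarith), abs_of_nonpos (by linarith)]
          linarith
        · right; right
          rw [abs_of_nonneg (a := p - r) (by linarith), abs_of_nonpos (a := q - r) (by linarith),
            abs_of_nonneg (a := p - q) (by linarith)]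
          linarith
        · right; left
          rw [abs_of_nonneg (by linarith), abs_of_nonneg (by linarith), abs_of_nonpos (by linarith)]
          linarith
        · right; left
          rw [abs_of_nonneg (by linarith), abs_of_nonneg (by linarith), abs_of_nonneg (by linarith)]
          linarith
      rcases key (e i x) (e i y) (e i z) with h | h | h
      · exact c1 (h.trans hn)
      · exact c2 (h.trans hn)
      · exact c3 (h.trans hn)
    · rw [tt_same hi hj, tt_diff h0 hik hj hk, tt_diff h0 hik hi hk] at c1 c2 c3
      rcases le_total (e i x) (e i y) with h1 | h1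
      · rw [abs_of_nonpos (by linarith)] at c1
        exact c1 (by linarith)
      · rw [abs_of_nonneg (by linarith)] at c2
        exact c2 (by linarith)
  · by_cases hik : i = k
    · subst hik
      rw [tt_diff h0 hij hi hj, tt_diff h0 (Ne.symm hij) hj hk, tt_same hi hk] at c1 c2 c3
      rcases le_total (e i x) (e i z) with h1 | h1
      · rw [abs_of_nonpos (by linarith)] at c1
        exact c1 (by linarith)
      · rw [abs_of_nonneg (by linarith)] at c3
        exact c3 (by linarith)
    · by_cases hjk : j = k
      · subst hjk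
        rw [tt_diff h0 hij hi hj, tt_same hj hk, tt_diff h0 hij hi hk] at c1 c2 c3
        rcases le_total (e j y) (e j z) with h1 | h1
        · rw [abs_of_nonpos (by linarith)] at c2
          exact c2 (by linarith)
        · rw [abs_of_nonneg (by linarith)] at c3
          exact c3 (by linarith)
      · -- three different legs
        rw [tt_diff h0 hij hi hj, tt_diff h0 hjk hj hk, tt_diff h0 hik hi hk] at c1 c2 c3
        have s1 := hS.sh_low i j x y hij
        have s2 := hS.sh_low j k y z hjk
        have s3 := hS.sh_low i k x z hik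
        have hsum : (d (R i) (R j) - ρ i j) + (d (R j) (R k) - ρ j k) + (d (R i) (R k) - ρ i k) =
            sr d R ρ := by
          have d01 := hd.symm (R 0) (R 1)
          have d02 := hd.symm (R 0) (R 2)
          have d12 := hd.symm (R 1) (R 2)
          have r01 := hρ.symm 0 1
          have r02 := hρ.symm 0 2
          have r12 := hρ.symm 1 2
          unfold sr
          revert hij hik hjk
          fin_cases i <;> fin_cases j <;> fin_cases k <;> intro hij hik hjk <;>
            first
            | exact absurd rfl hij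
            | exact absurd rfl hik
            | exact absurd rfl hjk
            | (simp only [Fin.zero_eta, Fin.mk_one, Fin.reduceFinMk]
               linarith)
            | simp only [Fin.zero_eta, Fin.mk_one, Fin.reduceFinMk]
        have m1 := hρd i j
        have m2 := hρd j k
        have m3 := hρd i k
        have hqc : q = i ∨ q = j ∨ q = k :=
          (show ∀ i j k q : Fin 3, i ≠ j → j ≠ k → i ≠ k → q = i ∨ q = j ∨ q = k by decide)
            i j k q hij hjk hik
        have p1 := h0 i x
        have p2 := h0 j y
        have p3 := h0 k z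
        obtain ⟨mu, hmu0, hmx, hmy, hmz, hmin⟩ : ∃ mu : ℝ, 0 ≤ mu ∧ mu ≤ e i x ∧ mu ≤ e j y ∧
            mu ≤ e k z ∧ (mu = e i x ∨ mu = e j y ∨ mu = e k z) := by
          rcases le_total (e i x) (e j y) with h1 | h1
          · rcases le_total (e i x) (e k z) with h2 | h2
            · exact ⟨e i x, p1, le_rfl, h1, h2, Or.inl rfl⟩
            · exact ⟨e k z, p3, h2, h2.trans h1, le_rfl, Or.inr (Or.inr rfl)⟩
          · rcases le_total (e j y) (e k z) with h2 | h2
            · exact ⟨e j y, p2, h1, le_rfl, h2, Or.inr (Or.inl rfl)⟩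
            · exact ⟨e k z, p3, h2.trans h1, h2, le_rfl, Or.inr (Or.inr rfl)⟩
        have hmq : mu ≤ ga ρ q := by
          rcases hqc with h | h | h
          · rw [h]
            exact hmx.trans (hS.e_le i x)
          · rw [h]
            exact hmy.trans (hS.e_le j y)
          · rw [h]
            exact hmz.trans (hS.e_le k z)
        have hm3 := three_min (s := d (R i) (R j) - ρ i j) (t := d (R j) (R k) - ρ j k)
          (u := d (R i) (R k) - ρ i k) (m := 1 / 4 * mu) (by linarith) (by linarith) (by linarith)
          (by linarith) (by linarith)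
        have w1 : min (d (R i) (R j) - ρ i j) (1 / 4 * mu) ≤ sh x y :=
          le_trans (min_le_min le_rfl (mul_le_mul_of_nonneg_left (le_min hmx hmy)
            (by norm_num))) s1
        have w2 : min (d (R j) (R k) - ρ j k) (1 / 4 * mu) ≤ sh y z :=
          le_trans (min_le_min le_rfl (mul_le_mul_of_nonneg_left (le_min hmy hmz)
            (by norm_num))) s2
        have w3 : min (d (R i) (R k) - ρ i k) (1 / 4 * mu) ≤ sh x z :=
          le_trans (min_le_min le_rfl (mul_le_mul_of_nonneg_left (le_min hmx hmz)
            (by norm_num))) s3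
        rcases hmin with h | h | h
        · exact c1 (by linarith)
        · exact c2 (by linarith)
        · exact c3 (by linarith)

end Vale.Agent.P235.K5.EX.H315
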